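import Vale.Agent.P269C.Spec2

/-! Block C of P269: the theorem of Stokes on an atlas. -/

set_option autoImplicit false
set_option linter.all false
set_option maxSynthPendingDepth 3

noncomputable section

namespace Vale.Agent.P269CI

open Set Filter Asymptotics MeasureTheory MvPolynomial Vale.Agent.P273.H183 Vale.Agent.P272.K
open Vale.Agent.P269C
open scoped Topology ContDiff Matrix ComplexOrder Classical

variable {L : Type} {m m' g D : ℕ}

/-- The local count of isomorphisms. -/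
theorem cnt (k1 : K1) {C : Fam L m} {C' : Fam L m'} (hC : Kur C) (hC' : C'.IsStable)
    {b : Cm m'} (hb : b ∈ C'.B) {K : Set (Cm m)} (hK : K ⊆ C.B) (hc : IsCompact K) :
    ∃ (k : ℕ) (φ : Fin k → Cm m' → Cm m) (Φ : Fin k → C'.X → C.X), ∀ᶠ a in 𝓝 b,
      (∀ j, Mor C' C (φ j) (Φ j) a) ∧ ∀ x ∈ K, (Iso C' a C x).ncard =
          (Finset.univ.filter fun j => φ j a = x).card := by
  obtain ⟨k, φ, Φ, h⟩ := k1.cnt hC hC' b hb K hK hc
  refine ⟨k, φ, Φ, h.mono fun a ha => ⟨ha.1, fun x hx => ?_⟩⟩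
  have h1 := (ha.2 x hx).2 fun _ _ => True
  simpa using h1

theorem rho_zero (A : Atlas g D L) (a : Fin A.k) {x : Cm D} (hx : x ∉ (A.C a).B) :
    A.ρ a x = 0 := by
  by_contra h
  exact hx ((A.sm a).2.2 (subset_tsupport _ h))

theorem one_at (A A' : Atlas g D L) (a : Fin A.k) {y : Cm D} (hy : y ∈ (A.C a).B) :
    ∑ b, ∑ᶠ x, ((Iso (A.C a) y (A'.C b) x).ncard : ℝ) * A'.ρ b x = 1 := by
  obtain ⟨e, he⟩ := A.fr a y hy
  exact A'.one D (A.C a) (A.kur a).1 y hy ⟨e, he.self_of_nhds.1⟩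

/-- Near a point of the base almost all points are in the base, with smooth fibre. -/
theorem nae_sm (nul : NUL) {C : Fam L m} (hC : Kur C) {y : Cm m} (hy : y ∈ C.B) :
    ∀ᶠ x in nae y, x ∈ C.B ∧ Sm C x := by
  have h1 : ∀ᶠ x in nae y, x ∈ C.B := mem_inf_of_left (hC.1.1.mem_nhds hy)
  have h2 : ∀ᶠ x in nae y, x ∈ C.B → Sm C x := mem_inf_of_right (nul L m C hC)
  filter_upwards [h1, h2] with x h3 h4 using ⟨h3, h4 h3⟩

theorem keyb (key : KEY) (k1 : K1) (nul : NUL) (gdc : GDC) : KEYB := by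
  intro g D L A u β hu hβ
  refine key D (Fin A.k) A.ρ u β (fun a b y x => if y ∈ (A.C a).B ∧ x ∈ (A.C b).B then
    (Iso (A.C a) y (A.C b) x).ncard else 0) (fun a => ⟨(A.sm a).1, (A.sm a).2.1⟩) ?_ ?_ ?_ ?_
  · intro a y hy
    filter_upwards [(A.kur a).1.1.mem_nhds ((A.sm a).2.2 hy)] with x hx
    exact ⟨hu.sm a x hx, gdc D x _ (hβ.gd a x hx)⟩
  · intro a b y x
    by_cases h : y ∈ (A.C a).B ∧ x ∈ (A.C b).B
    · rw [if_pos h, if_pos h.symm]
      exact k1.card (A.kur a).1 (A.kur b).1 h.1 h.2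
    · rw [if_neg h, if_neg fun h' => h h'.symm]
  · intro a y hy
    have hy' := (A.sm a).2.2 hy
    rw [← one_at A A a hy']
    refine Finset.sum_congr rfl fun b _ => finsum_congr fun x => ?_
    by_cases hx : x ∈ (A.C b).B
    · rw [if_pos ⟨hy', hx⟩]
    · rw [rho_zero A b hx, mul_zero, mul_zero]
  · intro a b y₀ hy
    have hy' := (A.sm a).2.2 hy
    obtain ⟨k, φ, Φ, h⟩ := cnt k1 (A.kur b) (A.kur a).1 hy' (A.sm b).2.2 (A.sm b).2.1
    refine ⟨k, φ, fun j => (h.self_of_nhds.1 j).2.1, ?_, fun j _ => ?_⟩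
    · filter_upwards [h, (A.kur a).1.1.mem_nhds hy'] with y h1 h2 x hx
      rw [if_pos ⟨h2, (A.sm b).2.2 hx⟩]
      exact h1.2 x hx
    · have h1 : ∀ᶠ y in nae y₀, ∀ᶠ x in 𝓝 y, Mor (A.C a) (A.C b) (φ j) (Φ j) x :=
        mem_inf_of_left (eventually_eventually_nhds.2 (h.mono fun x hx => hx.1 j))
      filter_upwards [h1, nae_sm nul (A.kur a) hy'] with y h2 h3
      have h4 := h2.self_of_nhds
      exact ⟨hu.nat a b y _ h3.1 h4.1 h3.2 ⟨_, h4.2.2.1⟩, hβ.nat a b _ _ y h3.1 h3.2 h2⟩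

end Vale.Agent.P269CI
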