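import Vale.Agent.P269CI.Keyb
import Vale.Agent.P269CD.Defs

/-! Block C of P269: forms on the base and their pull back to the universal curve. -/

set_option autoImplicit false
set_option linter.all false
set_option maxSynthPendingDepth 3

noncomputable section

namespace Vale.Agent.P269CI

open Set Filter Asymptotics MeasureTheory MvPolynomial Vale.Agent.P273.H183 Vale.Agent.P272.K
open Vale.Agent.P269C Vale.Agent.P269CD
open scoped Topology ContDiff Matrix ComplexOrder Classical

variable {L : Type} {m m' g D : ℕ}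

theorem nae_neBot (y : Cm D) : (nae y).NeBot :=
  inf_neBot_iff.2 fun _ hs _ ht =>
    ((Measure.dense_of_ae ht).inter_nhds_nonempty hs).imp fun _ hx => ⟨hx.2, hx.1⟩

/-- Continuous functions that agree almost everywhere near a point agree at the point. -/
theorem eq_of_nae {X : Type} [TopologicalSpace X] [T2Space X] {f f' : Cm D → X} {y : Cm D}
    (h : ContinuousAt f y) (h' : ContinuousAt f' y) (e : ∀ᶠ x in nae y, f x = f' x) :
    f y = f' y :=
  haveI := nae_neBot y
  tendsto_nhds_unique_of_eventuallyEq (l := nae y) (h.tendsto.mono_left inf_le_left)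
    (h'.tendsto.mono_left inf_le_left) e

theorem gd_eq (gdc : GDC) {β γ : Cm D → Po D} {y : Cm D} (h : Gd y β) (h' : Gd y γ)
    (e : ∀ᶠ x in nae y, β x = γ x) : β y = γ y := by
  ext n
  exact eq_of_nae ((gdc D y β h).sm n).continuousAt ((gdc D y γ h').sm n).continuousAt
    (e.mono fun x hx => by rw [hx])

theorem bas_nb (nul : NUL) (chn : CHN) (gdc : GDC) {A : Atlas g D L} {β : FB A} (h : NatB A β) :
    β ∈ GB A := by
  refine ⟨h.gd, fun a a' φ Φ b hb hm => ?_⟩
  have h0 := hm.self_of_nhds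
  refine gd_eq gdc (h.gd a b hb) (chn.gpb φ b (β a') h0.2.1 (h.gd a' _ h0.1)) ?_
  have h1 : ∀ᶠ y in nae b, ∀ᶠ x in 𝓝 y, Mor (A.C a) (A.C a') φ Φ x :=
    mem_inf_of_left (eventually_eventually_nhds.2 hm)
  filter_upwards [h1, nae_sm nul (A.kur a) hb] with y h2 h3
  exact h.nat a a' φ Φ y h3.1 h3.2 h2

/-- A continuous weight with compact support times a function continuous on the support. -/
theorem int_of {w : Cm D → ℝ} {T : Cm D → ℂ} (hw : Continuous w) (hc : HasCompactSupport w)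
    (hT : ∀ x ∈ tsupport w, ContinuousAt T x) : Integrable fun x => (w x : ℂ) * T x := by
  refine Continuous.integrable_of_hasCompactSupport (continuous_iff_continuousAt.2 fun x => ?_) ?_
  · by_cases hx : x ∈ tsupport w
    · exact (Complex.continuous_ofReal.comp hw).continuousAt.mul (hT x hx)
    · refine (continuousAt_const (y := (0 : ℂ))).congr ?_
      filter_upwards [notMem_tsupport_iff_eventuallyEq.1 hx] with y hy
      rw [hy, Pi.zero_apply, Complex.ofReal_zero, zero_mul]
  · refine hc.mono fun x hx h0 => hx ?_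
    simp only [h0, Complex.ofReal_zero, zero_mul]

/-! ### charts -/

theorem hol_pi {C : Fam L m} (hC : C.IsStable) (p : C.X) (i : Fin m) :
    C.hol (fun q => C.π q i) p := by
  obtain ⟨U, x, y, t, hp, h⟩ := hC.2.2.2.2.1 p
  exact (h.2.2.2.2 p hp _).2 ⟨fun w => w.1 i,
    analyticAt_pi_iff.1 analyticAt_fst i,
    Eventually.of_forall fun _ => rfl⟩

theorem an_of_hol {C : Fam L D} {e : OpenPartialHomeomorph C.X (Cm (D + 1))} (he : IsCh C e)
    {y : Cm (D + 1)} (hy : y ∈ e.target) {f : C.X → ℂ} (hf : C.hol f (e.symm y)) :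
    AnalyticAt ℂ (fun x => f (e.symm x)) y := by
  have h := (he _ (e.map_target hy) f).1 hf
  rwa [e.right_inv hy] at h

theorem hol_coord {C : Fam L D} {e : OpenPartialHomeomorph C.X (Cm (D + 1))} (he : IsCh C e)
    {q : C.X} (hq : q ∈ e.source) (k : Fin (D + 1)) : C.hol (fun r => e r k) q := by
  refine (he q hq _).2 (((ContinuousLinearMap.proj (R := ℂ) k).analyticAt (e q)).congr ?_)
  filter_upwards [e.open_target.mem_nhds (e.map_source hq)] with x hx
  rw [e.right_inv hx]
  rfl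

theorem pi_an {C : Fam L D} (hC : C.IsStable) {e : OpenPartialHomeomorph C.X (Cm (D + 1))}
    (he : IsCh C e) {y : Cm (D + 1)} (hy : y ∈ e.target) :
    AnalyticAt ℂ (fun x => C.π (e.symm x)) y :=
  analyticAt_pi_iff.2 fun i => an_of_hol he hy (hol_pi hC _ i)

theorem p_an {C : Fam L D} (hC : C.IsStable) (c : Ch C) {y : Cm (D + 1)} (hy : y ∈ c.e.target) :
    AnalyticAt ℂ c.p y := pi_an hC c.hol hy

theorem p_mem {C : Fam L D} (hC : C.IsStable) (c : Ch C) (y : Cm (D + 1)) : c.p y ∈ C.B :=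
  hC.2.2.1 _

theorem tr_an {C C' : Fam L D} (c : Ch C) (c' : Ch C') {φ : Cm D → Cm D} {Φ : C.X → C'.X}
    {y : Cm (D + 1)} (hy : y ∈ c.e.target) (hm : Mor C C' φ Φ (c.p y))
    (hs : Φ (c.e.symm y) ∈ c'.e.source) : AnalyticAt ℂ (c.tr c' Φ) y :=
  analyticAt_pi_iff.2 fun k => an_of_hol c.hol hy (f := fun q => c'.e (Φ q) k)
    ((hm.2.2.2 _ rfl).2 _ (hol_coord c'.hol hs k))

theorem tr_src {C C' : Fam L D} (c : Ch C) (c' : Ch C') {φ : Cm D → Cm D} {Φ : C.X → C'.X}
    {y : Cm (D + 1)} (hy : y ∈ c.e.target) (hm : Mor C C' φ Φ (c.p y))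
    (hs : Φ (c.e.symm y) ∈ c'.e.source) : ∀ᶠ x in 𝓝 y, Φ (c.e.symm x) ∈ c'.e.source :=
  (ContinuousAt.comp (f := c.e.symm) (hm.2.2.2 _ rfl).1 (c.e.continuousAt_symm hy)).eventually
    (c'.e.open_source.mem_nhds hs)

theorem p_tr (k1 : K1) {C C' : Fam L D} (hC : C.IsStable) (c : Ch C) (c' : Ch C')
    {φ : Cm D → Cm D} {Φ : C.X → C'.X} {y : Cm (D + 1)} (hy : y ∈ c.e.target)
    (hm : ∀ᶠ x in 𝓝 (c.p y), Mor C C' φ Φ x) (hs : Φ (c.e.symm y) ∈ c'.e.source) :
    (fun x => c'.p (c.tr c' Φ x)) =ᶠ[𝓝 y] fun x => φ (c.p x) := by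
  filter_upwards [tr_src c c' hy hm.self_of_nhds hs, (p_an hC c hy).continuousAt.eventually hm]
    with x h1 h2
  show C'.π (c'.e.symm (c'.e (Φ (c.e.symm x)))) = φ (c.p x)
  rw [c'.e.left_inv h1]
  exact (k1.mem h2.2.2.1).mapsTo rfl

theorem sl_an (b : Cm D) : AnalyticAt ℂ (sl (D := D)) b := by
  refine analyticAt_pi_iff.2 fun k => ?_
  refine Fin.lastCases ?_ (fun k => ?_) k
  · simp only [sl, Fin.snoc_last]
    exact analyticAt_const
  · simp only [sl, Fin.snoc_castSucc]
    exact (ContinuousLinearMap.proj (R := ℂ) k).analyticAt b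

theorem pr_sl (b : Cm D) : pr (sl b) = b := Fin.init_snoc _ _

theorem sl_cont : Continuous (sl (D := D)) :=
  continuous_iff_continuousAt.2 fun b => (sl_an b).continuousAt

theorem pr_cont : Continuous (pr (D := D)) := continuous_pi fun _ => continuous_apply _

theorem p_sl {C : Fam L D} (c : Ch C) {i : L} (hi : c.ad = some i) {b : Cm D}
    (hb : sl b ∈ c.e.target) : c.p (sl b) = b := by
  have h := (c.on i hi _ (c.e.map_target hb)).1
  rw [c.e.right_inv hb, pr_sl] at h
  exact h.symm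

theorem supp_sl {w : Cm (D + 1) → ℝ} {b : Cm D} (hb : b ∈ tsupport fun x => w (sl x)) :
    sl b ∈ tsupport w :=
  closure_minimal (t := sl ⁻¹' tsupport w) (fun x hx => subset_tsupport w hx)
    ((isClosed_tsupport w).preimage sl_cont) hb

theorem cpt_sl {w : Cm (D + 1) → ℝ} (hw : HasCompactSupport w) :
    HasCompactSupport fun x => w (sl x) :=
  (hw.isCompact.image pr_cont).of_isClosed_subset (isClosed_tsupport _)
    fun b hb => ⟨sl b, supp_sl hb, pr_sl b⟩

/-- The weights of the charts adapted to a section sum up to the weight of the base. -/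
theorem sum_sl {C : Fam L D} (hC : C.IsStable) {γ : Cm D → ℝ} (hγ : tsupport γ ⊆ C.B)
    (S : Sys C γ) (i : L) (b : Cm D) :
    ∑ j, (if (S.c j).ad = some i then S.w j (sl b) else 0) = γ b := by
  have h0 : ∀ j, (S.c j).ad = some i → S.w j (sl b) ≠ 0 →
      b ∈ C.B ∧ C.s i b ∈ (S.c j).e.source := fun j hj hw => by
    have h1 := (S.sm j).2.2 (subset_tsupport _ hw)
    have h2 := p_sl _ hj h1
    have h3 := ((S.c j).on i hj _ ((S.c j).e.map_target h1)).2.1
    exact ⟨h2 ▸ p_mem hC _ _, h2 ▸ h3⟩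
  by_cases hb : b ∈ C.B
  · have hs : C.π (C.s i b) = b := ((hC.2.2.2.2.2 b hb).2.1 i).1
    have h1 := S.one (C.s i b)
    rw [hs] at h1
    rw [← h1]
    refine Finset.sum_congr rfl fun j _ => ?_
    by_cases hj : (S.c j).ad = some i
    · rw [if_pos hj]
      by_cases hq : C.s i b ∈ (S.c j).e.source
      · have h2 := ((S.c j).on i hj _ hq).2.2
        rw [hs] at h2
        rw [if_pos hq, h2]
      · rw [if_neg hq]
        by_contra hw
        exact hq (h0 j hj hw).2
    · rw [if_neg hj, if_neg]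
      intro hq
      exact (S.c j).off i hj _ hq (by rw [hs])
  · have h1 : γ b = 0 := by
      by_contra h
      exact hb (hγ (subset_tsupport _ h))
    rw [h1]
    refine Finset.sum_eq_zero fun j _ => ?_
    split_ifs with hj
    · by_contra hw
      exact hb (h0 j hj hw).1
    · rfl

theorem bas_g (k1 : K1) (ta : TAU) (chn : CHN) {A : Atlas g D L} (U : UC A) {β : FB A}
    (h : β ∈ GB A) : U.p β ∈ U.G := by
  refine ⟨fun j y hy => chn.gpb _ y (β j.1) (p_an (A.kur _).1 _ hy)
    (h.1 _ _ (p_mem (A.kur _).1 _ y)), fun j j' φ Φ y hy hm hs => ?_⟩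
  have h1 := p_tr k1 (A.kur _).1 (U.c j) (U.c j') hy hm hs
  have h2 := tr_an (U.c j) (U.c j') hy hm.self_of_nhds hs
  have h3 := p_an (A.kur _).1 (U.c j') (y := (U.c j).tr (U.c j') Φ y) ((U.c j').e.map_source hs)
  show pb (jac (U.c j).p y) (β j.1 ((U.c j).p y)) = pb _ (pb (jac (U.c j').p _) (β j'.1 _))
  rw [h.2 _ _ φ Φ _ (p_mem (A.kur _).1 _ y) hm, ta.comp, ta.comp, ← chn.chain _ _ y h3 h2,
    chn.jc _ _ y h1, chn.chain _ _ y hm.self_of_nhds.2.1 (p_an (A.kur _).1 _ hy),
    show (U.c j').p ((U.c j).tr (U.c j') Φ y) = φ ((U.c j).p y) from h1.self_of_nhds]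

theorem pb_sl (ta : TAU) (chn : CHN) {C : Fam L D} (hC : C.IsStable) (c : Ch C) {i : L}
    (hi : c.ad = some i) {b : Cm D} (hb : sl b ∈ c.e.target) (P : Po D) :
    pb (jac sl b) (pb (jac c.p (sl b)) P) = P := by
  have h1 : (fun x => c.p (sl x)) =ᶠ[𝓝 b] fun x => x := by
    filter_upwards [sl_cont.continuousAt.eventually (c.e.open_target.mem_nhds hb)] with x hx
    exact p_sl c hi hx
  rw [ta.comp, ← chn.chain _ _ b (p_an hC c hb) (sl_an b), chn.jc _ _ b h1, chn.jid, ta.one]

theorem bas_l (ta : TAU) (chn : CHN) (gdc : GDC) {A : Atlas g D L} (U : UC A) {β : FB A}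
    (h : β ∈ GB A) (i : L) : U.l i (U.p β) = A.int β := by
  unfold UC.l Atlas.int
  rw [Fintype.sum_sigma]
  refine Finset.sum_congr rfl fun a _ => ?_
  have h1 : ∀ j, (if (U.c ⟨a, j⟩).ad = some i then ∫ b, (U.w ⟨a, j⟩ (sl b) : ℂ) *
      tau (pb (jac sl b) (U.p β ⟨a, j⟩ (sl b))) else 0) =
      ∫ b, ((if ((U a).c j).ad = some i then (U a).w j (sl b) else 0 : ℝ) : ℂ) * tau (β a b) := by
    intro j
    by_cases hj : ((U a).c j).ad = some i
    · rw [if_pos hj]
      refine integral_congr_ae (Eventually.of_forall fun b => ?_)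
      simp only [if_pos hj]
      by_cases hw : (U a).w j (sl b) = 0
      · simp only [UC.w, hw, Complex.ofReal_zero, zero_mul]
      · have h2 := ((U a).sm j).2.2 (subset_tsupport _ hw)
        show _ * tau (pb _ (pb (jac ((U a).c j).p (sl b)) (β a (((U a).c j).p (sl b))))) = _
        rw [pb_sl ta chn (A.kur a).1 _ hj h2, p_sl _ hj h2]
    · rw [if_neg hj]
      simp only [if_neg hj, Complex.ofReal_zero, zero_mul, integral_zero]
  rw [Finset.sum_congr rfl fun j _ => h1 j, ← integral_finset_sum]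
  · refine integral_congr_ae (Eventually.of_forall fun b => ?_)
    simp only []
    rw [← Finset.sum_mul, ← Complex.ofReal_sum, sum_sl (A.kur a).1 (A.sm a).2.2]
  · intro j _
    by_cases hj : ((U a).c j).ad = some i
    · simp only [if_pos hj]
      refine int_of (((U a).sm j).1.continuous.comp sl_cont) (cpt_sl ((U a).sm j).2.1)
        fun b hb => ?_
      have h2 := p_sl _ hj (((U a).sm j).2.2 (supp_sl hb))
      exact (ta.sm _ b ∞ (gdc D b _ (h.1 a b (h2 ▸ p_mem (A.kur a).1 _ _))).sm).continuousAt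
    · simp only [if_neg hj, Complex.ofReal_zero, zero_mul]
      exact integrable_zero _ _ _

theorem bas (k1 : K1) (nul : NUL) (ta : TAU) (chn : CHN) (gdc : GDC) : BAS := by
  refine ⟨bas_nb nul chn gdc, fun U β h => ⟨bas_g k1 ta chn U h, ?_, bas_l ta chn gdc U h⟩⟩
  refine Finset.sum_eq_zero fun j _ => ?_
  show ∫ y, (U.w j y : ℂ) * tau (pb _ _) = 0
  simp only [ta.up, mul_zero, integral_zero]

end Vale.Agent.P269CI
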