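import Vale.Agent.P269CI.Yg
import Vale.Agent.P269CF.Spec

/-! Block C of P269: the potential of the form `Y` in a product chart. -/

set_option autoImplicit false
set_option linter.all false
set_option maxSynthPendingDepth 3

noncomputable section

namespace Vale.Agent.P269CI

open Set Filter Asymptotics MeasureTheory MvPolynomial Vale.Agent.P273.H183 Vale.Agent.P272.K
open Vale.Agent.P269C Vale.Agent.P269CD
open Vale.Agent.P269CT (pt mk Gen HolAt H π_mk isOpen_gen gen_iff ex_co)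
open scoped Topology ContDiff Matrix ComplexOrder Classical

variable {L : Type} {m m' k g D : ℕ}

/-- The generic form can be computed with any coordinate. -/
theorem gf_eq (k1 : K1) (k2 : K2) (chn : CHN) (t2 : T2) [Finite L] {h : Hm (Option L)}
    (hh : IsPsi h) {C : Fam L m} (hC : C.IsStable) {σ : Cm k → C.X} {y : Cm k}
    (hσ : HolAt C σ y) (hg : Gen C (σ y)) (hs : Sm C (C.π (σ y))) {o : Option L} {z : C.X → ℂ}
    (hz : C.hol z (mk C (σ y) o) ∧ Co C z (mk C (σ y) o)) :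
    gf h C σ o y = -dd (fun x => Real.log (H h C (σ x) o z)) y := by
  have h1 := H_sm k1 k2 t2 hh hC hσ hg hs hz
  obtain ⟨c, h2, h3, h4⟩ := H_ev k1 k2 hh hC hC (φ := fun x => x) (Φ := id) hσ
    ((hC.1.eventually_mem (hC.2.2.1 _)).mono fun x hx => mor_id k1 hx)
    (cz_spec hC (hg.sp_mk hC o)) hz
  have h5 : (2 : WithTop ℕ∞) ≤ ∞ := WithTop.coe_le_coe.2 (le_top : (2 : ℕ∞) ≤ ⊤)
  unfold gf
  rw [chn.ddc _ (fun x => Real.log (‖c x‖ ^ 2) + Real.log (H h C (σ x) o z)) y,
    (chn.dda _ _ y (((nsq_sm h2).log (by positivity)).of_le h5)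
      ((h1.1.log h1.2.ne').of_le h5)).1, chn.ddh c y h2 h3, zero_add]
  filter_upwards [h4, h2.continuousAt.eventually_ne h3,
    h1.1.continuousAt.eventually_ne h1.2.ne'] with x e1 e3 e4
  rw [e1]
  exact Real.log_mul (by positivity) e4

theorem yb (k1 : K1) (k2 : K2) (chn : CHN) (t2 : T2) (yf : YF) : P269CF.YB := by
  intro L _ D h C c hh hK hP
  cases hc : c.ad with
  | some i =>
    obtain ⟨v, hv⟩ := yf.bub c hh hK i hc none (Or.inl rfl)
    exact ⟨v, fun y hy => ⟨(hv y hy).1, (hv y hy).2.1, (hv y hy).2.2⟩⟩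
  | none =>
    refine ⟨fun y => Real.log (H h C (c.e.symm y) none c.z), fun y hy => ?_⟩
    have hq := c.e.map_target hy
    obtain ⟨-, h1, h2, h3⟩ := hP _ hq
    have hg : Gen C (c.e.symm y) :=
      ⟨⟨_, h2⟩, fun i => (c.off i (by rw [hc]; exact fun e => by cases e) _ hq).symm⟩
    have h4 := H_sm k1 k2 t2 hh hK.1 (holAt_symm c.hol hy) hg h3 (o := none) ⟨h1, h2⟩
    refine ⟨h4.1.log h4.2.ne', ?_, fun _ => ?_⟩
    · rw [(yf.gen c hh hK none y hy).2 hg h3]
      exact gf_eq k1 k2 chn t2 hh hK.1 (holAt_symm c.hol hy) hg h3 ⟨h1, h2⟩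
    · rw [Real.exp_log h4.2, if_neg (by simp), one_mul]

end Vale.Agent.P269CI
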