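import Vale.Agent.P269CI.Keyb

/-! Block C of P269: the integrals do not depend on the atlas and on the metrics. -/

set_option autoImplicit false
set_option linter.all false
set_option maxSynthPendingDepth 3

noncomputable section

namespace Vale.Agent.P269CI

open Set Filter Asymptotics MeasureTheory MvPolynomial Vale.Agent.P273.H183 Vale.Agent.P272.K
open Vale.Agent.P269C
open scoped Topology ContDiff Matrix ComplexOrder Classical

variable {L : Type} {m m' g D : ℕ}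

theorem mor_fg (k1 : K1) {C : Fam L m} {C' : Fam L m'} {φ : Cm m' → Cm m} {Φ : C'.X → C.X}
    {a : Cm m'} (h : Mor C' C φ Φ a) : Mor (fg C') (fg C) φ Φ a :=
  ⟨h.1, h.2.1, (k1.fg.1 h.2.2.1).1, h.2.2.2⟩

theorem mor_id (k1 : K1) {C : Fam L m} {a : Cm m} (h : a ∈ C.B) :
    Mor C C (fun x => x) id a :=
  ⟨h, analyticAt_id, k1.refl C a, fun _ _ => ⟨continuousAt_id, fun _ hf => hf⟩⟩

/-- Naturality of `lam` along a morphism of families with frames. -/
theorem lam_nat (k1 : K1) (ta : TAU) (chn : CHN) (la : LAM) [Finite L] {G : Gm g} (hG : IsLam G)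
    {C : Fam L m} {C' : Fam L m'} (hC : C.IsStable) (hC' : C'.IsStable) {φ : Cm m' → Cm m}
    {Φ : C'.X → C.X} {y : Cm m'} (hy : y ∈ C'.B) (hs : Sm C' y)
    (h : ∀ᶠ x in 𝓝 y, Mor C' C φ Φ x) (f' : ∃ e : Fin g → Df C', Fr C' y e)
    (f : ∃ e : Fin g → Df C, Fr C (φ y) e) (k : ℕ) :
    lam G C' y k = pb (jac φ y) (lam G C (φ y) k) := by
  have h1 : ∀ᶠ x in 𝓝 y, Mor (fg C') (fg C') (fun x => x) id x := by
    filter_upwards [hC'.1.mem_nhds hy] with x hx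
    exact mor_fg k1 (mor_id k1 hx)
  have h2 := la.nat (φ₁ := fun x => x) (Φ₁ := id) hG hC' hC' hC y hy hs h1
    (h.mono fun x hx => mor_fg k1 hx) f' f k
  rw [chn.jid, ta.one] at h2
  exact h2

/-- Naturality of `fm` along a morphism of families with frames. -/
theorem fm_nat (k1 : K1) (ta : TAU) (chn : CHN) (ps : PSI) (la : LAM) [Fintype L] {G : Gm g}
    {h : Hm L} (hG : IsLam G) (hh : IsPsi h)
    {C : Fam L m} {C' : Fam L m'} (hC : C.IsStable) (hC' : C'.IsStable) {φ : Cm m' → Cm m}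
    {Φ : C'.X → C.X} {y : Cm m'} (hy : y ∈ C'.B) (hs : Sm C' y)
    (hm : ∀ᶠ x in 𝓝 y, Mor C' C φ Φ x) (f' : ∃ e : Fin g → Df C', Fr C' y e)
    (f : ∃ e : Fin g → Df C, Fr C (φ y) e) (P : MvPolynomial ℕ ℂ) (n : L → ℕ) :
    fm G h P n C' y = pb (jac φ y) (fm G h P n C (φ y)) := by
  unfold fm
  rw [map_mul, map_prod, comp_aeval_apply]
  have e : lam G C' y = fun k => pb (jac φ y) (lam G C (φ y) k) :=
    funext fun k => lam_nat k1 ta chn la hG hC hC' hy hs hm f' f k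
  rw [e]
  congr 1
  refine Finset.prod_congr rfl fun i _ => ?_
  rw [map_pow, ps.nat hh hC hC' y hy hm i]

/-- Independence of the atlas. -/
theorem ind_atlas (dc : DC) (k1 : K1) (nul : NUL) (ta : TAU) (chn : CHN) (gdc : GDC) (ps : PSI)
    (la : LAM) (nb : NB) [Fintype L] (A A' : Atlas g D L) {G : Gm g} {h : Hm L} (hG : IsLam G)
    (hh : IsPsi h) (P : MvPolynomial ℕ ℂ) (n : L → ℕ) : A.iv G h P n = A'.iv G h P n := by
  refine dc D (Fin A.k) (Fin A'.k) A.ρ A'.ρ (fun a y => tau (fm G h P n (A.C a) y))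
    (fun b x => tau (fm G h P n (A'.C b) x)) (fun a b y x => (Iso (A.C a) y (A'.C b) x).ncard)
    (fun _ => ∅) (fun a => ⟨(A.sm a).1.continuous, (A.sm a).2.1, measure_empty⟩) ?_ ?_ ?_ ?_
  · refine fun b => ⟨(A'.sm b).1.continuous, (A'.sm b).2.1, fun x hx => ?_⟩
    exact (ta.sm _ x ∞ (gdc D x _ ((nb.fm A' hG hh P n).gd b x ((A'.sm b).2.2 hx))).sm).continuousAt
  · refine fun a => Eventually.of_forall fun y hy => one_at A A' a ?_
    exact (A.sm a).2.2 (subset_tsupport _ hy)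
  · refine fun b => Eventually.of_forall fun x hx => ?_
    have hx' := (A'.sm b).2.2 (subset_tsupport _ hx)
    rw [← one_at A' A b hx']
    refine Finset.sum_congr rfl fun a _ => ?_
    rw [compl_empty, finsum_mem_univ]
    refine finsum_congr fun y => ?_
    by_cases hy : y ∈ (A.C a).B
    · rw [k1.card (A.kur a).1 (A'.kur b).1 hy hx']
    · rw [rho_zero A a hy, mul_zero, mul_zero]
  · intro a b y₀ hy
    have hy' := (A.sm a).2.2 hy
    obtain ⟨k, φ, Φ, hc⟩ := cnt k1 (A'.kur b) (A.kur a).1 hy' (A'.sm b).2.2 (A'.sm b).2.1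
    refine ⟨k, φ, fun j => (hc.self_of_nhds.1 j).2.1, hc.mono fun y hy => hy.2, fun j _ => ?_⟩
    have h1 : ∀ᶠ y in nae y₀, ∀ᶠ x in 𝓝 y, Mor (A.C a) (A'.C b) (φ j) (Φ j) x :=
      mem_inf_of_left (eventually_eventually_nhds.2 (hc.mono fun x hx => hx.1 j))
    filter_upwards [h1, nae_sm nul (A.kur a) hy'] with y h2 h3
    rw [fm_nat k1 ta chn ps la hG hh (A'.kur b).1 (A.kur a).1 h3.1 h3.2 h2 (A.fr a y h3.1)
      (A'.fr b _ h2.self_of_nhds.1), ta.det]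

/-! ### change of the metric -/

/-- The quotient of two metrics is natural. -/
theorem quot_nat (k1 : K1) (k2 : K2) {h h' : Hm L} (hh : IsPsi h) (hh' : IsPsi h')
    {C : Fam L m} {C' : Fam L m'} (hC : C.IsStable) (hC' : C'.IsStable) {b : Cm m} {b' : Cm m'}
    (hb : b ∈ C.B) (hb' : b' ∈ C'.B) (hI : (Iso C b C' b').Nonempty) {i : L} {z : C.X → ℂ}
    {z' : C'.X → ℂ} (hz : C.hol z (C.s i b) ∧ Co C z (C.s i b))
    (hz' : C'.hol z' (C'.s i b') ∧ Co C' z' (C'.s i b')) :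
    Real.log (h m C b i z) - Real.log (h' m C b i z) =
      Real.log (h m' C' b' i z') - Real.log (h' m' C' b' i z') := by
  obtain ⟨Θ, hΘ⟩ := hI
  obtain ⟨Φ, rfl⟩ := k1.ext hC hb Θ hΘ
  have hs : ∀ j, C.π (C.s j b) = b := fun j => ((hC.2.2.2.2.2 b hb).2.1 j).1
  have h1 := k1.fg.1 (show Is C b C' b' Φ from hΘ)
  have h2 : Co C (fun q => z' (Φ q)) (C.s i b) := by
    refine ((k1.nf hC hC' h1.1 (C.s i b) (hs i)).2.2.1 z').1 ?_
    rw [h1.2 i (hs i)]
    exact hz'.2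
  obtain ⟨c, -, hc⟩ := k2.dr hC h2 hz.2.1
  have h3 : Dr C z (fun q => z' (Φ q)) (C.s i b) (c (C.s i b)) :=
    pure_le_nhdsWithin (s := C.fib (C.π (C.s i b))) rfl hc
  have e := hh.1 m m' C C' b b' _ hΘ i z _ z' _ hs hz.2 hz'.2 (fun _ => rfl) h3
  have e' := hh'.1 m m' C C' b b' _ hΘ i z _ z' _ hs hz.2 hz'.2 (fun _ => rfl) h3
  have p1 := (hh.2 m C hC b hb i z hz.1 hz.2).1
  have p2 := (hh.2 m' C' hC' b' hb' i z' hz'.1 hz'.2).1
  have p3 := (hh'.2 m' C' hC' b' hb' i z' hz'.1 hz'.2).1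
  have p4 : ‖c (C.s i b)‖ ^ 2 ≠ 0 := by
    intro h0
    rw [e, h0, zero_mul] at p1
    exact lt_irrefl _ p1
  rw [e, e', Real.log_mul p4 p2.ne', Real.log_mul p4 p3.ne']
  ring

/-- the chosen coordinate at a marked point -/
def zc (C : Fam L m) (b : Cm m) (i : L) : C.X → ℂ :=
  Classical.epsilon fun z => C.hol z (C.s i b) ∧ Co C z (C.s i b)

theorem zc_spec (k2 : K2) {C : Fam L m} (hC : C.IsStable) {b : Cm m} (hb : b ∈ C.B) (i : L) :
    C.hol (zc C b i) (C.s i b) ∧ Co C (zc C b i) (C.s i b) :=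
  Classical.epsilon_spec (k2.ex hC ((hC.2.2.2.2.2 b hb).2.1 i).2.2.2.2)

/-- the logarithm of the quotient of two metrics -/
def uq (h h' : Hm L) (C : Fam L m) (i : L) (b : Cm m) : ℝ :=
  Real.log (h m C b i (zc C b i)) - Real.log (h' m C b i (zc C b i))

theorem uq_ev (k1 : K1) (k2 : K2) {h h' : Hm L} (hh : IsPsi h) (hh' : IsPsi h')
    {C : Fam L m} (hC : C.IsStable) {b : Cm m} (hb : b ∈ C.B) {i : L} {z : C.X → ℂ}
    (hz : C.hol z (C.s i b) ∧ Co C z (C.s i b)) : uq h h' C i =ᶠ[𝓝 b]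
      fun a => Real.log (h m C a i z) - Real.log (h' m C a i z) := by
  filter_upwards [hC.1.mem_nhds hb, ((hC.2.2.2.2.2 b hb).2.1 i).2.1.eventually
    (k2.ev hC hz.1 hz.2)] with a h1 h2
  exact quot_nat k1 k2 hh hh' hC hC h1 h1 ⟨_, k1.refl C a⟩ (zc_spec k2 hC h1 i) h2

theorem log_sm {h : Hm L} (hh : IsPsi h) {C : Fam L m} (hC : C.IsStable) {b : Cm m}
    (hb : b ∈ C.B) {i : L} {z : C.X → ℂ} (hz : C.hol z (C.s i b) ∧ Co C z (C.s i b)) :
    ContDiffAt ℝ ∞ (fun a => Real.log (h m C a i z)) b :=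
  (hh.2 m C hC b hb i z hz.1 hz.2).2.log (hh.2 m C hC b hb i z hz.1 hz.2).1.ne'

theorem uq_nat (k1 : K1) (k2 : K2) {h h' : Hm L} (hh : IsPsi h) (hh' : IsPsi h')
    (A : Atlas g D L) (i : L) : NatF A fun a => uq h h' (A.C a) i := by
  refine ⟨fun a y hy => ?_, fun a b y x hy hx _ hI => ?_⟩
  · have hz := zc_spec k2 (A.kur a).1 hy i
    exact ((log_sm hh (A.kur a).1 hy hz).sub (log_sm hh' (A.kur a).1 hy hz)).congr_of_eventuallyEq
      (uq_ev k1 k2 hh hh' (A.kur a).1 hy hz)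
  · exact quot_nat k1 k2 hh hh' (A.kur a).1 (A.kur b).1 hy hx hI (zc_spec k2 (A.kur a).1 hy i)
      (zc_spec k2 (A.kur b).1 hx i)

theorem dd_uq (k1 : K1) (k2 : K2) (chn : CHN) (ps : PSI) {h h' : Hm L} (hh : IsPsi h)
    (hh' : IsPsi h') {C : Fam L m} (hC : C.IsStable) {b : Cm m} (hb : b ∈ C.B) (i : L) :
    dd (uq h h' C i) b = psi h' C b i - psi h C b i := by
  have hz := zc_spec k2 hC hb i
  have h2 : (2 : WithTop ℕ∞) ≤ ∞ := WithTop.coe_le_coe.2 (le_top : (2 : ℕ∞) ≤ ⊤)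
  rw [chn.ddc _ _ b (uq_ev k1 k2 hh hh' hC hb hz),
    (chn.dda _ _ b ((log_sm hh hC hb hz).of_le h2) ((log_sm hh' hC hb hz).of_le h2)).2,
    ps.eq hh hC b hb i _ hz.1 hz.2, ps.eq hh' hC b hb i _ hz.1 hz.2]
  ring

/-- numerically equivalent natural forms -/
def Eqv (A : Atlas g D L) (γ γ' : Fin A.k → Cm D → Po D) : Prop :=
  NatB A γ ∧ NatB A γ' ∧ ∀ β, NatB A β → A.int (γ * β) = A.int (γ' * β)

theorem Eqv.refl {A : Atlas g D L} {γ : Fin A.k → Cm D → Po D} (h : NatB A γ) : Eqv A γ γ :=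
  ⟨h, h, fun _ _ => rfl⟩

theorem Eqv.mul (nb : NB) {A : Atlas g D L} {γ γ' δ δ' : Fin A.k → Cm D → Po D}
    (h : Eqv A γ γ') (h' : Eqv A δ δ') : Eqv A (γ * δ) (γ' * δ') := by
  refine ⟨nb.mul h.1 h'.1, nb.mul h.2.1 h'.2.1, fun β hβ => ?_⟩
  rw [mul_assoc, h.2.2 _ (nb.mul h'.1 hβ), mul_left_comm, h'.2.2 _ (nb.mul h.2.1 hβ),
    mul_left_comm, mul_assoc]

theorem natB_one (nb : NB) (A : Atlas g D L) : NatB A 1 := by
  have h := nb.cst A 1
  rw [C_1] at h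
  exact h

theorem Eqv.pow (nb : NB) {A : Atlas g D L} {γ γ' : Fin A.k → Cm D → Po D}
    (h : Eqv A γ γ') (n : ℕ) : Eqv A (γ ^ n) (γ' ^ n) := by
  induction n with
  | zero => rw [pow_zero, pow_zero]; exact Eqv.refl (natB_one nb A)
  | succ n ih => rw [pow_succ, pow_succ]; exact Eqv.mul nb ih h

theorem Eqv.prod (nb : NB) {A : Atlas g D L} {ι : Type} {γ γ' : ι → Fin A.k → Cm D → Po D}
    (s : Finset ι) (h : ∀ i, Eqv A (γ i) (γ' i)) : Eqv A (∏ i ∈ s, γ i) (∏ i ∈ s, γ' i) := by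
  induction s using Finset.induction_on with
  | empty => rw [Finset.prod_empty, Finset.prod_empty]; exact Eqv.refl (natB_one nb A)
  | insert i s hi ih => rw [Finset.prod_insert hi, Finset.prod_insert hi]; exact Eqv.mul nb (h i) ih

/-- Natural forms that differ by `dd u` are numerically equivalent. -/
theorem eqv_dd (kb : KEYB) (nb : NB) {A : Atlas g D L} {γ γ' : Fin A.k → Cm D → Po D}
    {u : Fin A.k → Cm D → ℝ} (h : NatB A γ) (h' : NatB A γ') (hu : NatF A u)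
    (e : ∀ a, ∀ y ∈ (A.C a).B, dd (u a) y = γ' a y - γ a y) : Eqv A γ γ' := by
  refine ⟨h, h', fun β hβ => ?_⟩
  have h1 := nb.mul (nb.add h' (nb.mul (nb.cst A (-1)) h)) hβ
  have h2 := nb.iadd (nb.mul h hβ) h1
  have h3 : A.int ((γ' + (fun _ _ => C (-1)) * γ) * β) = 0 := by
    rw [← kb g D L A u β hu hβ]
    refine nb.icg fun a y hy => ?_
    simp only [Pi.mul_apply, Pi.add_apply, e a y hy, map_neg, C_1]
    ring
  rw [h3, add_zero] at h2
  rw [← h2]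
  refine nb.icg fun a y _ => ?_
  simp only [Pi.mul_apply, Pi.add_apply, map_neg, C_1]
  ring

theorem eqv_psi (kb : KEYB) (k1 : K1) (k2 : K2) (chn : CHN) (ps : PSI) (nb : NB)
    {h h' : Hm L} (hh : IsPsi h) (hh' : IsPsi h') (A : Atlas g D L) (i : L) :
    Eqv A (fun a b => psi h (A.C a) b i) fun a b => psi h' (A.C a) b i :=
  eqv_dd kb nb (nb.psi A hh i) (nb.psi A hh' i) (uq_nat k1 k2 hh hh' A i)
    fun a y hy => dd_uq k1 k2 chn ps hh hh' (A.kur a).1 hy i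

theorem ind_metric (kb : KEYB) (k1 : K1) (k2 : K2) (chn : CHN) (ps : PSI) (nb : NB) [Fintype L]
    (A : Atlas g D L) {G : Gm g} {h h' : Hm L} (hG : IsLam G) (hh : IsPsi h) (hh' : IsPsi h')
    (P : MvPolynomial ℕ ℂ) (n : L → ℕ) : A.iv G h P n = A.iv G h' P n := by
  have h1 := (Eqv.prod nb Finset.univ fun i =>
    Eqv.pow nb (eqv_psi kb k1 k2 chn ps nb hh hh' A i) (n i)).2.2 _ (nb.lam A hG P)
  have e : ∀ h : Hm L, A.iv G h P n = A.int ((∏ i, (fun a b => psi h (A.C a) b i) ^ n i) *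
      fun a b => aeval (lam G (A.C a) b) P) := fun h => by
    refine nb.icg fun a y _ => ?_
    simp only [fm, Pi.mul_apply, Finset.prod_apply, Pi.pow_apply]
    rw [mul_comm]
  rw [e h, e h', h1]

theorem ind (dc : DC) (kb : KEYB) (ps : PSI) (la : LAM) (nb : NB) (k1 : K1) (k2 : K2) (nul : NUL)
    (ta : TAU) (chn : CHN) (gdc : GDC) : IND := fun _ _ _ _ A A' _ _ _ hG hh hh' P n =>
  (ind_metric kb k1 k2 chn ps nb A hG hh hh' P n).trans
    (ind_atlas dc k1 nul ta chn gdc ps la nb A A' hG hh' P n)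

end Vale.Agent.P269CI
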