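import Vale.Agent.P269CW.Spec2
import Vale.Agent.P269CK.Iso

/-! Block C of P269: scalings are isomorphisms of Weierstrass cubics. -/

set_option autoImplicit false
set_option linter.all false

noncomputable section

namespace Vale.Agent.P269CI

open Set Filter Vale.Agent.P273.H183 Vale.Agent.P272.K Vale.Agent.P269CW
open Vale.Agent.P269C (Is FH nf)
open Vale.Agent.P269CK (is_of nf_eq fh_congr_fib)
open scoped Topology Classical

variable {m m' : ℕ} {B : Set (Cm m)} {B' : Set (Cm m')} {a : Cm m → Cm 2} {a' : Cm m' → Cm 2}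
  {b : Cm m} {b' : Cm m'} {s : ℂ} {Φ : tot B a → tot B' a'} {Ψ : tot B' a' → tot B a}

/-- `Φ` is the scaling by `s` on the fibre over `b`. -/
def Sc (b : Cm m) (b' : Cm m') (s : ℂ) (Φ : tot B a → tot B' a') : Prop :=
  ∀ p : tot B a, pr p = b →
    (p ∈ (aff : Set (tot B a)) → Φ p ∈ (aff : Set (tot B' a')) ∧
      cA (Φ p) = (b', s ^ 2 * xC p, s ^ 3 * yC p)) ∧
    (p ∈ (far : Set (tot B a)) → Φ p ∈ (far : Set (tot B' a')) ∧
      cF (Φ p) = (b', wC p / s ^ 2, uC p / s))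

theorem ex_sc (hne' : B'.Nonempty) (hb' : b' ∈ B') (hs : s ≠ 0) (h0 : a' b' 0 = s ^ 4 * a b 0)
    (h1 : a' b' 1 = s ^ 6 * a b 1) : ∃ Φ : tot B a → tot B' a', Sc b b' s Φ := by
  refine ⟨fun p => if h : p ∈ (aff : Set (tot B a)) ∧
    (b', s ^ 2 * xC p, s ^ 3 * yC p) ∈ Zaff B' a' then ptA ⟨_, h.2⟩ else oo hne' b',
    fun p hp => ?_⟩
  by_cases hA : p ∈ (aff : Set (tot B a))
  · have h2 : yC p ^ 2 = sx (a (pr p)) (xC p) := (cA_mem hA).2
    have h3 : (b', s ^ 2 * xC p, s ^ 3 * yC p) ∈ Zaff B' a' := by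
      refine ⟨hb', ?_⟩
      rw [hp] at h2
      simp only [sx, h0, h1] at h2 ⊢
      linear_combination s ^ 6 * h2
    simp only [dif_pos (And.intro hA h3)]
    refine ⟨fun _ => ⟨ptA_mem _, cA_ptA _⟩, fun hF => ?_⟩
    have hx := (far_iff hA).1 hF
    have h4 : ptA ⟨_, h3⟩ ∈ (far : Set (tot B' a')) := (far_iff (ptA_mem _)).2 (by
      rw [xC, cA_ptA]
      exact mul_ne_zero (pow_ne_zero 2 hs) hx)
    refine ⟨h4, ?_⟩
    rw [cF_eq_tr (ptA_mem _) h4, cA_ptA, wC_eq hA hF, uC_eq hA hF]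
    simp only [tr]
    refine Prod.ext rfl (Prod.ext ?_ ?_)
    · simp only
      field_simp
    · simp only
      field_simp
  · simp only [dif_neg fun h : p ∈ (aff : Set (tot B a)) ∧
      (b', s ^ 2 * xC p, s ^ 3 * yC p) ∈ Zaff B' a' => hA h.1]
    refine ⟨fun h => absurd h hA, fun _ => ⟨oo_far hne' hb', ?_⟩⟩
    rw [cF_oo hne' hb', wC_eq_zero hA, uC_eq_zero hA, zero_div, zero_div]

theorem Sc.pr (h : Sc b b' s Φ) {p : tot B a} (hp : pr p = b) : pr (Φ p) = b' := by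
  rcases mem_aff_or_far p with h1 | h1
  · exact congrArg Prod.fst ((h p hp).1 h1).2
  · exact congrArg Prod.fst ((h p hp).2 h1).2

theorem Sc.cont (h : Sc b b' s Φ) : ContinuousOn Φ {p | P269CW.pr p = b} := by
  intro p hp
  rw [Topology.IsInducing.subtypeVal.continuousWithinAt_iff]
  rcases mem_aff_or_far p with h1 | h1
  · have h2 := continuousOn_cA.continuousAt (isOpen_aff.mem_nhds h1)
    have h3 : ContinuousAt (fun q : tot B a => emb (b', s ^ 2 * xC q, s ^ 3 * yC q)) p :=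
      continuous_emb.continuousAt.comp (continuousAt_const.prodMk
        ((continuousAt_const.mul h2.snd.fst).prodMk (continuousAt_const.mul h2.snd.snd)))
    have h4 : ∀ q, P269CW.pr q = b → q ∈ (aff : Set (tot B a)) →
        (Φ q).1 = emb (b', s ^ 2 * xC q, s ^ 3 * yC q) := fun q e hq => by
      rw [← emb_cA ((h q e).1 hq).1, ((h q e).1 hq).2]
    refine h3.continuousWithinAt.congr_of_eventuallyEq ?_ (h4 p hp h1)
    filter_upwards [self_mem_nhdsWithin, nhdsWithin_le_nhds (isOpen_aff.mem_nhds h1)] with q e hq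
    exact h4 q e hq
  · have h2 := continuousOn_cF.continuousAt (isOpen_far.mem_nhds h1)
    have h3 : ContinuousAt (fun q : tot B a => emb' (b', wC q / s ^ 2, uC q / s)) p :=
      continuous_emb'.continuousAt.comp (continuousAt_const.prodMk
        ((h2.snd.fst.div_const _).prodMk (h2.snd.snd.div_const _)))
    have h4 : ∀ q, P269CW.pr q = b → q ∈ (far : Set (tot B a)) →
        (Φ q).1 = emb' (b', wC q / s ^ 2, uC q / s) := fun q e hq => by
      rw [← emb'_cF ((h q e).2 hq).1, ((h q e).2 hq).2]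
    refine h3.continuousWithinAt.congr_of_eventuallyEq ?_ (h4 p hp h1)
    filter_upwards [self_mem_nhdsWithin, nhdsWithin_le_nhds (isOpen_far.mem_nhds h1)] with q e hq
    exact h4 q e hq

theorem Sc.inv (h : Sc b b' s Φ) {s' : ℂ} (h' : Sc b' b s' Ψ) (hs : s' * s = 1) {p : tot B a}
    (hp : P269CW.pr p = b) : Ψ (Φ p) = p := by
  apply Subtype.ext
  rcases mem_aff_or_far p with h1 | h1
  · obtain ⟨h2, h3⟩ := (h p hp).1 h1
    obtain ⟨h4, h5⟩ := (h' _ (h.pr hp)).1 h2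
    rw [← emb_cA h4, ← emb_cA h1, h5, xC, yC, h3, cA_eq, hp, ← mul_assoc, ← mul_assoc, ← mul_pow,
      ← mul_pow, hs, one_pow, one_pow, one_mul, one_mul]
  · obtain ⟨h2, h3⟩ := (h p hp).2 h1
    obtain ⟨h4, h5⟩ := (h' _ (h.pr hp)).2 h2
    rw [← emb'_cF h4, ← emb'_cF h1, h5, wC, uC, h3, cF_eq, hp, div_div, div_div, ← mul_pow,
      mul_comm s s', hs, one_pow, div_one, div_one]

theorem an_x (z : Cm m × ℂ × ℂ) : AnalyticAt ℂ (fun w : Cm m × ℂ × ℂ => w.2.1) z :=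
  AnalyticAt.comp analyticAt_fst analyticAt_snd

theorem an_y (z : Cm m × ℂ × ℂ) : AnalyticAt ℂ (fun w : Cm m × ℂ × ℂ => w.2.2) z :=
  AnalyticAt.comp analyticAt_snd analyticAt_snd

theorem Sc.pull (hne : B.Nonempty) (hne' : B'.Nonempty) (h : Sc b b' s Φ) {p : tot B a}
    (hp : P269CW.pr p = b) {f : tot B' a' → ℂ} (hf : FH (W (Fin 1) B' a' hne') f (Φ p)) :
    FH (W (Fin 1) B a hne) (fun q => f (Φ q)) p := by
  obtain ⟨g, hg, e⟩ := hf
  have ht : Tendsto Φ (nf (W (Fin 1) B a hne) p) (nf (W (Fin 1) B' a' hne') (Φ p)) := by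
    rw [nf_eq (C := W (Fin 1) B a hne) (b := b) hp,
      nf_eq (C := W (Fin 1) B' a' hne') (b := b') (h.pr hp)]
    exact (h.cont p hp).tendsto_nhdsWithin fun q hq => h.pr hq
  have hm := P269CK.ev_mem (C := W (Fin 1) B a hne) (b := b) hp
  have hl := P269CK.nf_le (C := W (Fin 1) B a hne) p
  have hl' := P269CK.nf_le (C := W (Fin 1) B' a' hne') (Φ p)
  rcases mem_aff_or_far p with h1 | h1
  · obtain ⟨h2, h3⟩ := (h p hp).1 h1
    obtain ⟨G, hG, eG⟩ := (hlo_aff h2).1 hg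
    refine ⟨fun q => G (b', s ^ 2 * xC q, s ^ 3 * yC q), (hlo_aff h1).2
      ⟨fun w => G (b', s ^ 2 * w.2.1, s ^ 3 * w.2.2), AnalyticAt.comp_of_eq (g := G) hG
        (analyticAt_const.prod ((analyticAt_const.mul (an_x _)).prod
          (analyticAt_const.mul (an_y _)))) h3.symm, Eventually.of_forall fun _ => rfl⟩, ?_⟩
    filter_upwards [ht.eventually e, ht.eventually (hl' eG), hm, hl (isOpen_aff.mem_nhds h1)]
      with q e1 e2 e3 e4
    rw [e1, e2, ((h q e3).1 e4).2]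
  · obtain ⟨h2, h3⟩ := (h p hp).2 h1
    obtain ⟨G, hG, eG⟩ := (hlo_far h2).1 hg
    refine ⟨fun q => G (b', wC q / s ^ 2, uC q / s), (hlo_far h1).2
      ⟨fun w => G (b', w.2.1 / s ^ 2, w.2.2 / s), AnalyticAt.comp_of_eq (g := G) hG
        (analyticAt_const.prod ((an_x _).div_const.prod (an_y _).div_const)) h3.symm,
        Eventually.of_forall fun _ => rfl⟩, ?_⟩
    filter_upwards [ht.eventually e, ht.eventually (hl' eG), hm, hl (isOpen_far.mem_nhds h1)]
      with q e1 e2 e3 e4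
    rw [e1, e2, ((h q e3).2 e4).2]

theorem scl : SCL := by
  intro m m' B B' a a' hne hne' _ _ b hb b' hb' s hs h0 h1
  obtain ⟨Φ, h⟩ := ex_sc (B := B) (a := a) (b := b) hne' hb' hs h0 h1
  obtain ⟨Ψ, h'⟩ := ex_sc (B := B') (a := a') (b := b') (a' := a) hne hb (inv_ne_zero hs)
    (by rw [h0]; field_simp) (by rw [h1]; field_simp)
  have i1 : ∀ p, pr p = b → Ψ (Φ p) = p := fun p hp => h.inv h' (inv_mul_cancel₀ hs) hp
  have i2 : ∀ q, pr q = b' → Φ (Ψ q) = q := fun q hq => h'.inv h (mul_inv_cancel₀ hs) hq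
  refine ⟨Φ, is_of (C := W (Fin 1) B a hne) (C' := W (Fin 1) B' a' hne')
    ⟨fun p hp => h.pr hp, fun p hp q hq e => ?_, fun q hq => ⟨Ψ q, h'.pr hq, i2 q hq⟩⟩ h.cont
    (fun i _ => ?_) fun p hp f => ⟨h.pull hne hne' hp, fun hf => ?_⟩, fun p hp => ⟨fun hA => ?_,
      fun hF => ?_⟩⟩
  · rw [← i1 p hp, e, i1 q hq]
  · obtain ⟨h2, h3⟩ := (h _ (pr_oo hne hb)).2 (oo_far hne hb)
    apply Subtype.ext
    show (Φ (oo hne b)).1 = (oo hne' b' : tot B' a').1
    rw [← emb'_cF h2, ← emb'_cF (oo_far hne' hb'), h3, cF_oo hne' hb', wC_oo hne hb, uC_oo hne hb,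
      zero_div, zero_div]
  · have h2 := h'.pull hne' hne (h.pr hp) (f := fun q => f (Φ q)) (by rw [i1 p hp]; exact hf)
    exact (fh_congr_fib (C := W (Fin 1) B' a' hne') (b := b') (h.pr hp) fun q hq => by
      rw [i2 q hq]).1 h2
  · obtain ⟨h2, h3⟩ := (h p hp).1 hA
    exact ⟨h2, by rw [xC, h3], by rw [yC, h3]⟩
  · obtain ⟨h2, h3⟩ := (h p hp).2 hF
    exact ⟨h2, by rw [wC, h3], by rw [uC, h3]⟩

end Vale.Agent.P269CI
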