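import Vale.Agent.P269CI.Bas

/-! Block C of P269: chart systems of the total space exist. -/

set_option autoImplicit false
set_option linter.all false
set_option maxSynthPendingDepth 3

noncomputable section

namespace Vale.Agent.P269CI

open Set Filter Asymptotics MeasureTheory MvPolynomial Vale.Agent.P273.H183 Vale.Agent.P272.K
open Vale.Agent.P269C Vale.Agent.P269CD
open scoped Topology ContDiff Matrix ComplexOrder Classical

variable {L : Type} {m m' g D : ℕ}

theorem pi_s {C : Fam L m} (hC : C.IsStable) (i : L) (q : C.X) : C.π (C.s i (C.π q)) = C.π q :=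
  ((hC.2.2.2.2.2 _ (hC.2.2.1 q)).2.1 i).1

theorem sec_cont (k2 : K2) {C : Fam L m} (hC : C.IsStable) (i : L) :
    Continuous fun q => C.s i (C.π q) :=
  continuous_iff_continuousAt.2 fun q => ContinuousAt.comp (f := C.π)
    ((hC.2.2.2.2.2 _ (hC.2.2.1 q)).2.1 i).2.1 (k2.cπ hC).continuousAt

theorem open_off (k2 : K2) [Finite L] {C : Fam L m} (hC : C.IsStable) (P : L → Prop) :
    IsOpen {q : C.X | ∀ i, P i → q ≠ C.s i (C.π q)} := by
  have := hC.2.1
  rw [setOf_forall]
  refine isOpen_iInter_of_finite fun i => ?_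
  by_cases h : P i
  · simp only [h, true_imp_iff]
    exact isOpen_ne_fun continuous_id (sec_cont k2 hC i)
  · simp only [h, false_imp_iff, setOf_true]
    exact isOpen_univ

theorem isCh_restr {C : Fam L D} {e : OpenPartialHomeomorph C.X (Cm (D + 1))} (he : IsCh C e)
    {V : Set C.X} (hV : IsOpen V) : IsCh C (e.restrOpen V hV) := fun q hq f => he q hq.1 f

/-- Every point is in a chart which is adapted to the sections. -/
theorem ex_ch (k2 : K2) (t3 : T3) [Finite L] {C : Fam L D} (hK : Kur C) (p : C.X) :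
    ∃ c : Ch C, p ∈ c.e.source := by
  have hC := hK.1
  by_cases hp : ∃ i, p = C.s i (C.π p)
  · obtain ⟨i, hi⟩ := hp
    have hs := (hC.2.2.2.2.2 _ (hC.2.2.1 p)).2.1
    obtain ⟨z, hz, hc⟩ := k2.ex hC (p := p) (hi ▸ (hs i).2.2.2.2)
    have ha : AnalyticAt ℂ (fun b => z (C.s i b)) (C.π p) := (hs i).2.2.1 z (hi ▸ hz)
    have h1 : C.hol (fun q => z q - z (C.s i (C.π q))) p :=
      k2.han hC (fun w => w.2.1 - z (C.s i w.1)) hz hz
        ((analyticAt_fst.comp analyticAt_snd).sub
          (AnalyticAt.comp_of_eq (g := fun b => z (C.s i b)) ha analyticAt_fst rfl))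
    have h2 : Co C (fun q => z q - z (C.s i (C.π q))) p := by
      obtain ⟨-, U, hU, h3⟩ := hc
      refine ⟨⟨_, h1, EventuallyEq.rfl⟩, U ∩ C.fib (C.π p), inter_mem hU self_mem_nhdsWithin,
        fun q hq r hr e => h3 hq.1 hr.1 ?_⟩
      have e1 : C.π q = C.π p := hq.2
      have e2 : C.π r = C.π p := hr.2
      simp only [e1, e2] at e
      exact sub_left_injective e
    obtain ⟨e, he, h3, h4⟩ := t3.co hC _ p h1 h2
    have hV := e.open_source.inter (open_off k2 hC fun j => some i ≠ some j)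
    refine ⟨⟨e.restrOpen _ ((open_off k2 hC fun j => some i ≠ some j).inter
      (hV.preimage (sec_cont k2 hC i))), some i, isCh_restr h3 _, ?_,
      fun j hj q hq => hq.2.1 j hj⟩, he, ?_, ?_⟩
    · intro j hj q hq
      obtain rfl : i = j := Option.some.inj hj
      refine ⟨?_, ⟨hq.2.2.1, hq.2.2.2, ?_⟩, ?_⟩
      · show pr (e q) = _
        rw [h4 q hq.1]
        exact Fin.init_snoc _ _
      · rw [mem_preimage, pi_s hC]
        exact hq.2.2
      · show e _ = _
        rw [h4 _ hq.2.2.1, pi_s hC, sub_self]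
        rfl
    · intro j hj e
      exact hj (congrArg some ((hs i).2.2.2.1 j (hi.symm.trans e)))
    · rw [mem_preimage, ← hi]
      exact ⟨he, fun j hj e => hj (congrArg some ((hs i).2.2.2.1 j (hi.symm.trans e)))⟩
  · obtain ⟨e, he, h3⟩ := t3.ex hK p
    exact ⟨⟨e.restrOpen _ (open_off k2 hC fun _ => True), none, isCh_restr h3 _,
      fun _ h => (by cases h), fun j _ q hq => hq.2 j trivial⟩, he, fun j _ h => hp ⟨j, h⟩⟩

/-- A function on a chart, extended by zero to the total space. -/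
def ez {C : Fam L D} (e : OpenPartialHomeomorph C.X (Cm (D + 1))) (b : Cm (D + 1) → ℝ)
    (q : C.X) : ℝ := if q ∈ e.source then b (e q) else 0

theorem an_sm {E F : Type} [NormedAddCommGroup E] [NormedSpace ℂ E] [NormedAddCommGroup F]
    [NormedSpace ℂ F] [CompleteSpace F] {f : E → F} {x : E} (h : AnalyticAt ℂ f x) :
    ContDiffAt ℝ ∞ f x := (h.contDiffAt (n := ∞)).restrict_scalars ℝ

theorem ez_sm {C : Fam L D} (hC : C.IsStable) {e e' : OpenPartialHomeomorph C.X (Cm (D + 1))}
    (he : IsCh C e) (he' : IsCh C e') {b : Cm (D + 1) → ℝ} (hb : ContDiff ℝ ∞ b)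
    (hc : HasCompactSupport b) (hs : tsupport b ⊆ e'.target) {y : Cm (D + 1)}
    (hy : y ∈ e.target) : ContDiffAt ℝ ∞ (fun x => ez e' b (e.symm x)) y := by
  have := hC.2.1
  by_cases hq : e.symm y ∈ e'.source
  · have h1 : AnalyticAt ℂ (fun x => e' (e.symm x)) y :=
      analyticAt_pi_iff.2 fun k => an_of_hol he hy (hol_coord he' hq k)
    refine (hb.contDiffAt.comp y (an_sm h1)).congr_of_eventuallyEq ?_
    filter_upwards [(e.continuousAt_symm hy).eventually (e'.open_source.mem_nhds hq)] with x hx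
    exact if_pos hx
  · have h1 : IsClosed (e'.symm '' tsupport b) :=
      (hc.isCompact.image_of_continuousOn (e'.continuousOn_symm.mono hs)).isClosed
    have h2 : e.symm y ∈ (e'.symm '' tsupport b)ᶜ := by
      rintro ⟨x, hx, h⟩
      exact hq (h ▸ e'.map_target (hs hx))
    refine (contDiffAt_const (c := (0 : ℝ))).congr_of_eventuallyEq ?_
    filter_upwards [(e.continuousAt_symm hy).eventually (h1.isOpen_compl.mem_nhds h2)] with x hx
    unfold ez
    split_ifs with h3
    · by_contra h4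
      exact hx ⟨_, subset_tsupport _ h4, e'.left_inv h3⟩
    · rfl

theorem sys (k2 : K2) (t3 : T3) : SYS := by
  intro L _ D C γ hK hγ hc hs
  have hC := hK.1
  choose c hc' using ex_ch k2 t3 hK
  have h1 : ∀ p, ∃ b : Cm (D + 1) → ℝ, tsupport b ⊆ (c p).e.target ∧ HasCompactSupport b ∧
      ContDiff ℝ ∞ b ∧ range b ⊆ Icc 0 1 ∧ b ((c p).e p) = 1 := fun p =>
    exists_contDiff_tsupport_subset ((c p).e.open_target.mem_nhds ((c p).e.map_source (hc' p)))
  choose b hb using h1
  have h0 : ∀ p q, 0 ≤ ez (c p).e (b p) q := fun p q => by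
    unfold ez
    split_ifs
    · exact ((hb p).2.2.2.1 ⟨_, rfl⟩).1
    · exact le_rfl
  obtain ⟨t, -, ht⟩ := (hC.2.2.2.1 _ hs hc).elim_nhds_subcover
    (fun p => {q | 0 < ez (c p).e (b p) q}) fun p _ => by
      have h2 : ∀ᶠ q in 𝓝 p, 0 < b p ((c p).e q) :=
        (ContinuousAt.comp (f := (c p).e) (hb p).2.2.1.continuous.continuousAt
          ((c p).e.continuousAt (hc' p))).eventually (lt_mem_nhds (by
            rw [Function.comp_apply, (hb p).2.2.2.2]; exact one_pos))
      filter_upwards [h2, (c p).e.open_source.mem_nhds (hc' p)] with q h3 h4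
      show 0 < ez _ _ q
      rwa [ez, if_pos h4]
  obtain ⟨k, ⟨ν⟩⟩ : ∃ k, Nonempty (Fin k ≃ t) := ⟨_, ⟨t.equivFin.symm⟩⟩
  set S : C.X → ℝ := fun q => ∑ j, ez (c (ν j)).e (b (ν j)) q with hS
  have hp : ∀ q, C.π q ∈ tsupport γ → S q ≠ 0 := fun q hq => by
    obtain ⟨p, hp, h2⟩ := mem_iUnion₂.1 (ht hq)
    refine (Finset.sum_pos' (fun j _ => h0 _ q) ⟨ν.symm ⟨p, hp⟩, Finset.mem_univ _, ?_⟩).ne'
    rw [Equiv.apply_symm_apply]
    exact h2
  refine ⟨⟨k, fun j => c (ν j), fun j y => b (ν j) y *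
    (γ ((c (ν j)).p y) / S ((c (ν j)).e.symm y)), fun j => ⟨?_, (hb _).2.1.mul_right,
      (tsupport_mul_subset_left).trans (hb _).1⟩, fun q => ?_⟩⟩
  · refine contDiff_iff_contDiffAt.2 fun y => ?_
    by_cases hy : y ∈ tsupport (b (ν j))
    · have h2 := (hb _).1 hy
      refine (hb _).2.2.1.contDiffAt.mul ?_
      by_cases h3 : (c (ν j)).p y ∈ tsupport γ
      · exact (hγ.contDiffAt.comp y (an_sm (p_an hC _ h2))).div (ContDiffAt.sum fun j' _ =>
          ez_sm hC (c _).hol (c _).hol (hb _).2.2.1 (hb _).2.1 (hb _).1 h2) (hp _ h3)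
      · refine (contDiffAt_const (c := (0 : ℝ))).congr_of_eventuallyEq ?_
        filter_upwards [(p_an hC _ h2).continuousAt.eventually
          (notMem_tsupport_iff_eventuallyEq.1 h3)] with x hx
        rw [hx, Pi.zero_apply, zero_div]
    · refine (contDiffAt_const (c := (0 : ℝ))).congr_of_eventuallyEq ?_
      filter_upwards [notMem_tsupport_iff_eventuallyEq.1 hy] with x hx
      rw [hx, Pi.zero_apply, zero_mul]
  · have h2 : ∀ j, (if q ∈ (c (ν j)).e.source then b (ν j) ((c (ν j)).e q) *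
        (γ ((c (ν j)).p ((c (ν j)).e q)) / S ((c (ν j)).e.symm ((c (ν j)).e q))) else 0) =
        ez (c (ν j)).e (b (ν j)) q * (γ (C.π q) / S q) := fun j => by
      unfold ez Ch.p
      split_ifs with h3
      · rw [(c (ν j)).e.left_inv h3]
      · rw [zero_mul]
    rw [Finset.sum_congr rfl fun j _ => h2 j, ← Finset.sum_mul]
    by_cases h3 : C.π q ∈ tsupport γ
    · exact mul_div_cancel₀ _ (hp q h3)
    · rw [image_eq_zero_of_notMem_tsupport h3, zero_div, mul_zero]

end Vale.Agent.P269CI
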