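import Vale.Agent.P269CI.Sys
import Vale.Agent.P269CI.Ind
import Vale.Agent.P269CT.Sec

/-! Block C of P269: the forms `Y` on the universal curve are natural. -/

set_option autoImplicit false
set_option linter.all false
set_option maxSynthPendingDepth 3

noncomputable section

namespace Vale.Agent.P269CI

open Set Filter Asymptotics MeasureTheory MvPolynomial Vale.Agent.P273.H183 Vale.Agent.P272.K
open Vale.Agent.P269C Vale.Agent.P269CD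
open Vale.Agent.P269CT (pt mk Gen HolAt H π_mk isOpen_gen gen_iff ex_co)
open scoped Topology ContDiff Matrix ComplexOrder Classical

variable {L : Type} {m m' k g D : ℕ}

theorem is_pi (k1 : K1) {C : Fam L m} {C' : Fam L m'} {b' : Cm m'} {Φ : C.X → C'.X} {p : C.X}
    (h : Is C (C.π p) C' b' Φ) : C'.π (Φ p) = b' := (k1.mem h).mapsTo rfl

theorem mk_map (k1 : K1) {C : Fam L m} {C' : Fam L m'} (hC : C.IsStable) {b' : Cm m'}
    {Φ : C.X → C'.X} {p : C.X} (h : Is C (C.π p) C' b' Φ) (o : Option L) :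
    Φ (mk C p o) = mk C' (Φ p) o := by
  cases o with
  | none => rfl
  | some i =>
    show Φ (C.s i (C.π p)) = C'.s i (C'.π (Φ p))
    rw [is_pi k1 h]
    exact (k1.fg.1 h).2 i (pi_s hC i p)

theorem is_pt (k1 : K1) {C : Fam L m} {C' : Fam L m'} (hC : C.IsStable) {b' : Cm m'}
    {Φ : C.X → C'.X} {p : C.X} (h : Is C (C.π p) C' b' Φ) :
    Is (pt C p) (C.π p) (pt C' (Φ p)) (C'.π (Φ p)) Φ := by
  have h1 := is_pi k1 h
  subst h1
  exact (k1.fg (C := pt C p) (C' := pt C' (Φ p))).2 ⟨(k1.fg.1 h).1, fun o _ => mk_map k1 hC h o⟩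

theorem gen_map (k1 : K1) {C : Fam L m} {C' : Fam L m'} (hC : C.IsStable) (hC' : C'.IsStable)
    {b' : Cm m'} {Φ : C.X → C'.X} {p : C.X} (h : Is C (C.π p) C' b' Φ) (hp : Gen C p) :
    Gen C' (Φ p) := by
  refine (gen_iff hC').2 ⟨(k1.nf hC hC' (k1.fg.1 h).1 p rfl).2.2.2.2.2 hp.sp, fun i e => ?_⟩
  exact hp.2 i ((k1.mem h).injOn (pi_s hC i p) rfl ((mk_map k1 hC h (some i)).trans e))

theorem sm_map (k1 : K1) {C : Fam L m} {C' : Fam L m'} (hC : C.IsStable) (hC' : C'.IsStable)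
    {b : Cm m} {b' : Cm m'} {Φ : C.X → C'.X} (h : Is C b C' b' Φ) (hb : Sm C b) : Sm C' b' := by
  intro q hq
  obtain ⟨p, hp, rfl⟩ := (k1.mem h).surjOn hq
  exact (k1.nf hC hC' (k1.fg.1 h).1 p hp).2.2.2.2.2 (hb p hp)

/-- The transformation of the metrics under isomorphisms of fibres. -/
theorem H_chg (k1 : K1) {h : Hm (Option L)} (hh : IsPsi h) {C : Fam L m} {C' : Fam L m'}
    (hC : C.IsStable) {b' : Cm m'} {Φ : C.X → C'.X} {p : C.X} (hI : Is C (C.π p) C' b' Φ)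
    {o : Option L} {z : C.X → ℂ} {z' : C'.X → ℂ} {c : ℂ} (hz : Co C z (mk C p o))
    (hz' : Co C' z' (mk C' (Φ p) o)) (hd : Dr C z (fun q => z' (Φ q)) (mk C p o) c) :
    H h C p o z = ‖c‖ ^ 2 * H h C' (Φ p) o z' :=
  hh.1 m m' (pt C p) (pt C' (Φ p)) _ _ _ (is_pt k1 hC hI) o z (fun q => z' (Φ q)) z' c
    (fun j => π_mk hC p j) hz hz' (fun _ => rfl) hd

theorem H_ev (k1 : K1) (k2 : K2) {h : Hm (Option L)} (hh : IsPsi h) {C : Fam L m} {C' : Fam L m'}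
    (hC : C.IsStable) (hC' : C'.IsStable) {φ : Cm m → Cm m'} {Φ : C.X → C'.X} {σ : Cm k → C.X}
    {y : Cm k} (hσ : HolAt C σ y) (hm : ∀ᶠ x in 𝓝 (C.π (σ y)), Mor C C' φ Φ x) {o : Option L}
    {z : C.X → ℂ} {z' : C'.X → ℂ} (hz : C.hol z (mk C (σ y) o) ∧ Co C z (mk C (σ y) o))
    (hz' : C'.hol z' (mk C' (Φ (σ y)) o) ∧ Co C' z' (mk C' (Φ (σ y)) o)) :
    ∃ c : Cm k → ℂ, AnalyticAt ℂ c y ∧ c y ≠ 0 ∧
      ∀ᶠ x in 𝓝 y, H h C (σ x) o z = ‖c x‖ ^ 2 * H h C' (Φ (σ x)) o z' := by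
  have h0 := hm.self_of_nhds
  rw [← mk_map k1 hC h0.2.2.1] at hz'
  have h1 : C.hol (fun q => z' (Φ q)) (mk C (σ y) o) := (h0.2.2.2 _ (π_mk hC _ o)).2 _ hz'.1
  have h2 : Co C (fun q => z' (Φ q)) (mk C (σ y) o) :=
    ((k1.nf hC hC' (k1.fg.1 h0.2.2.1).1 _ (π_mk hC _ o)).2.2.1 z').1 hz'.2
  obtain ⟨c, hc, hd⟩ := k2.drh hC h1 h2 hz.1
  have h3 := hσ.mk hC o
  refine ⟨fun x => c (mk C (σ x) o), h3.2 c hc, (k2.ne hC h2 hz.2.1 hd.self_of_nhds).1 hz.2, ?_⟩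
  filter_upwards [h3.1.eventually hd, h3.1.eventually (k2.ev hC hz.1 hz.2),
    h3.1.eventually (k2.ev hC h1 h2), (hσ.π hC).continuousAt.eventually hm] with x e1 e2 e3 e4
  refine H_chg k1 hh hC e4.2.2.1 e2.2 ?_ e1
  rw [← mk_map k1 hC e4.2.2.1]
  exact ((k1.nf hC hC' (k1.fg.1 e4.2.2.1).1 _ (π_mk hC _ o)).2.2.1 z').2 e3.2

theorem nsq_sm {c : Cm k → ℂ} {y : Cm k} (h : AnalyticAt ℂ c y) :
    ContDiffAt ℝ ∞ (fun x => ‖c x‖ ^ 2) y := (an_sm h).norm_sq ℝ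

/-- The metrics are smooth and positive at generic points of smooth fibres. -/
theorem H_sm (k1 : K1) (k2 : K2) (t2 : T2) [Finite L] {h : Hm (Option L)} (hh : IsPsi h)
    {C : Fam L m} (hC : C.IsStable) {σ : Cm k → C.X} {y : Cm k} (hσ : HolAt C σ y)
    (hg : Gen C (σ y)) (hs : Sm C (C.π (σ y))) {o : Option L} {z : C.X → ℂ}
    (hz : C.hol z (mk C (σ y) o) ∧ Co C z (mk C (σ y) o)) :
    ContDiffAt ℝ ∞ (fun x => H h C (σ x) o z) y ∧ 0 < H h C (σ y) o z := by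
  obtain ⟨z₁, e, v, h1, h2, h3, h4⟩ := t2.all hh hC (hσ.ev hC) o
  have h5 := h4.self_of_nhds hg hs
  obtain ⟨c, h6, h7, h8⟩ := H_ev k1 k2 hh hC hC (φ := fun x => x) (Φ := id) hσ
    ((hC.1.eventually_mem (hC.2.2.1 _)).mono fun x hx => mor_id k1 hx) hz ⟨h5.1, h5.2.1⟩
  have e1 : (fun x => H h C (σ x) o z) =ᶠ[𝓝 y] fun x => ‖c x‖ ^ 2 * (v x * ‖e x‖ ^ 2) := by
    filter_upwards [h8, h4, hσ.1.eventually ((isOpen_gen hC).mem_nhds hg),
      (hσ.π hC).continuousAt.eventually ((k2.smo hC).mem_nhds ⟨hC.2.2.1 _, hs⟩)] with x e1 e2 e3 e4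
    rw [e1, ← (e2 e3 e4.2).2.2.2]
    rfl
  refine ⟨((nsq_sm h6).mul (h1.mul (nsq_sm h3))).congr_of_eventuallyEq e1, ?_⟩
  rw [show H h C (σ y) o z = _ from e1.self_of_nhds]
  have := h5.2.2.1
  positivity

theorem cz_spec {C : Fam L m} (hC : C.IsStable) {q : C.X} (hq : Sp C q) :
    C.hol (cz C q) q ∧ Co C (cz C q) q := Classical.epsilon_spec (ex_co hC hq)

/-- The naturality of the generic forms. -/
theorem gf_nat (k1 : K1) (k2 : K2) (chn : CHN) (t2 : T2) [Finite L] {h : Hm (Option L)}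
    (hh : IsPsi h) {C : Fam L m} {C' : Fam L m'} (hC : C.IsStable) (hC' : C'.IsStable)
    {φ : Cm m → Cm m'} {Φ : C.X → C'.X} {k' : ℕ} {σ : Cm k → C.X} {σ' : Cm k' → C'.X}
    {τ : Cm k → Cm k'} {y : Cm k} (hσ : HolAt C σ y) (hσ' : HolAt C' σ' (τ y))
    (hτ : AnalyticAt ℂ τ y) (hm : ∀ᶠ x in 𝓝 (C.π (σ y)), Mor C C' φ Φ x)
    (e : ∀ᶠ x in 𝓝 y, σ' (τ x) = Φ (σ x)) (hg : Gen C (σ y)) (hs : Sm C (C.π (σ y)))
    (o : Option L) : gf h C σ o y = pb (jac τ y) (gf h C' σ' o (τ y)) := by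
  have h0 := hm.self_of_nhds.2.2.1
  have e0 := e.self_of_nhds
  have hg' : Gen C' (σ' (τ y)) := e0 ▸ gen_map k1 hC hC' h0 hg
  have hs' : Sm C' (C'.π (σ' (τ y))) := by
    rw [e0, is_pi k1 h0]
    exact sm_map k1 hC hC' h0 hs
  have hz := cz_spec hC (hg.sp_mk hC o)
  have hz' := cz_spec hC' (hg'.sp_mk hC' o)
  have h1 := H_sm k1 k2 t2 hh hC' hσ' hg' hs' hz'
  obtain ⟨c, h2, h3, h4⟩ := H_ev k1 k2 hh hC hC' hσ hm (z' := cz C' (mk C' (σ' (τ y)) o)) hz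
    (e0 ▸ hz')
  have h5 : (2 : WithTop ℕ∞) ≤ ∞ := WithTop.coe_le_coe.2 (le_top : (2 : ℕ∞) ≤ ⊤)
  have h6 := (h1.1.log h1.2.ne').of_le h5
  have h7 : ContDiffAt ℝ 2
      (fun x => Real.log (H h C' (σ' (τ x)) o (cz C' (mk C' (σ' (τ y)) o)))) y :=
    h6.comp y ((an_sm hτ).of_le h5)
  unfold gf
  rw [map_neg, ← chn.ddn τ y _ hτ h6, chn.ddc _ (fun x => Real.log (‖c x‖ ^ 2) +
    Real.log (H h C' (σ' (τ x)) o (cz C' (mk C' (σ' (τ y)) o)))) y,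
    (chn.dda _ _ y (((nsq_sm h2).log (by positivity)).of_le h5) h7).1, chn.ddh c y h2 h3, zero_add]
  filter_upwards [h4, e, h2.continuousAt.eventually_ne h3,
    hτ.continuousAt.eventually (h1.1.continuousAt.eventually_ne h1.2.ne')] with x e1 e2 e3 e4
  rw [e1, ← e2, Real.log_mul (by positivity) e4]

theorem holAt_symm {C : Fam L D} {e : OpenPartialHomeomorph C.X (Cm (D + 1))} (he : IsCh C e)
    {y : Cm (D + 1)} (hy : y ∈ e.target) : HolAt C e.symm y :=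
  ⟨e.continuousAt_symm hy, fun _ hf => an_of_hol he hy hf⟩

theorem yg (k1 : K1) (k2 : K2) (chn : CHN) (gdc : GDC) (t2 : T2) (nx : NULX) (yf : YF) : YG := by
  intro L _ g D A U h hh o
  refine ⟨fun j y hy => (yf.gen _ hh (A.kur _) o y hy).1, fun j j' φ Φ y hy hm hs => ?_⟩
  have hC := (A.kur j.1).1
  have hC' := (A.kur j'.1).1
  refine gd_eq gdc (yf.gen _ hh (A.kur _) o y hy).1
    (chn.gpb _ y _ (tr_an _ _ hy hm.self_of_nhds hs)
      (yf.gen _ hh (A.kur _) o _ ((U.c j').e.map_source hs)).1) ?_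
  have h1 : ∀ᶠ x in nae y, x ∈ (U.c j).e.target ∧ Φ ((U.c j).e.symm x) ∈ (U.c j').e.source ∧
      ∀ᶠ b in 𝓝 ((U.c j).p x), Mor (A.C j.1) (A.C j'.1) φ Φ b :=
    mem_inf_of_left (((U.c j).e.open_target.eventually_mem hy).and
      ((tr_src _ _ hy hm.self_of_nhds hs).and
        ((p_an hC _ hy).continuousAt.eventually (eventually_eventually_nhds.2 hm))))
  have h2 : ∀ᶠ x in nae y, x ∈ (U.c j).e.target → _ :=
    mem_inf_of_right (nx L D _ (A.kur j.1) _ (U.c j).hol)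
  filter_upwards [h1, h2] with x h3 h4
  obtain ⟨hg, hsm⟩ := h4 h3.1
  have h5 := h3.2.2.self_of_nhds
  have e0 : (U.c j').e.symm ((U.c j).tr (U.c j') Φ x) = Φ ((U.c j).e.symm x) :=
    (U.c j').e.left_inv h3.2.1
  have h6 := (U.c j').e.map_source h3.2.1
  have h7 := (yf.gen _ hh (A.kur _) o ((U.c j).tr (U.c j') Φ x) h6).2
    (e0 ▸ gen_map k1 hC hC' h5.2.2.1 hg) (by
      unfold Ch.p
      rw [e0, is_pi k1 h5.2.2.1]
      exact sm_map k1 hC hC' h5.2.2.1 hsm)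
  rw [(yf.gen _ hh (A.kur _) o x h3.1).2 hg hsm, h7]
  refine gf_nat k1 k2 chn t2 hh hC hC' (holAt_symm (U.c j).hol h3.1) (holAt_symm (U.c j').hol h6)
    (tr_an _ _ h3.1 h5 h3.2.1) h3.2.2 ?_ hg hsm o
  filter_upwards [tr_src _ _ h3.1 h5 h3.2.1] with x' hx'
  exact (U.c j').e.left_inv hx'

end Vale.Agent.P269CI
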